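import Vale.Agent.Lib.P154Q4.K2

/-!
Data for the first kernel of the four-state channel.
-/

namespace Vale.Agent.Lib.P154Q4.K1

open Kron Cells K2

/-- the difference polynomial of the first kernel times 4800 -/
def TK : Terms := [
  ((0,0,1), [((0,0,1),2060800), ((0,1,0),-307200), ((1,0,1),-3840000), ((1,1,0),3276800), ((2,0,0),-812544), ((3,0,0),768000)]),
  ((0,0,2), [((0,0,2),1204224000), ((0,1,1),-270336000), ((1,2,0),-860160000), ((2,0,1),-368640000), ((2,1,0),73728000), ((4,0,0),24576000)]),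
  ((0,1,0), [((0,0,1),-192000), ((0,2,0),-4608000), ((1,0,1),1267200), ((1,1,0),230400), ((2,0,0),-125376), ((3,0,0),64800)]),
  ((0,1,1), [((0,0,2),-270336000), ((0,1,1),-2560000000), ((0,2,0),688128000), ((1,0,1),49152000), ((1,2,0),-196608000), ((2,0,1),73728000), ((2,1,0),757760000), ((3,0,0),-16384000)]),
  ((0,2,0), [((0,1,0),-345600), ((0,1,1),688128000), ((0,2,0),135072000), ((1,0,1),-45792000), ((1,1,0),-73728000), ((1,2,0),-266112000), ((2,0,0),88704), ((2,0,1),24192000), ((2,1,0),-98304000), ((3,0,0),7872000), ((4,0,0),-2304000)]),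
  ((1,0,0), [((2,0,0),13749)]),
  ((1,0,1), [((0,0,1),-3840000), ((0,1,0),1267200), ((0,1,1),49152000), ((0,2,0),-45792000), ((1,0,1),15648000), ((1,1,0),-12288000), ((1,2,0),24192000), ((2,0,0),442752), ((2,0,1),-12672000), ((2,1,0),16384000), ((3,0,0),-4800000), ((4,0,0),2304000)]),
  ((1,1,0), [((0,0,1),3276800), ((0,2,0),-73728000), ((1,0,1),-12288000), ((1,1,0),1433600), ((2,0,0),1292288), ((2,1,0),20480000)]),
  ((1,2,0), [((0,0,2),-860160000), ((0,1,1),-196608000), ((0,2,0),-266112000), ((1,0,1),24192000), ((1,2,0),5042688000), ((2,0,1),-235008000), ((2,1,0),-147456000), ((3,0,0),-2304000), ((4,0,0),39936000)]),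
  ((2,0,0), [((0,0,1),-766080), ((0,1,0),-6240), ((0,2,0),844800), ((1,0,0),2485), ((1,0,1),535680), ((1,1,0),1114880), ((2,0,0),188504), ((3,0,0),-395880)]),
  ((2,0,1), [((0,0,2),-368640000), ((0,1,1),73728000), ((0,2,0),24192000), ((1,0,1),-12672000), ((1,2,0),-235008000), ((2,0,1),281088000), ((2,1,0),-36864000), ((3,0,0),2304000), ((4,0,0),-39936000)]),
  ((2,1,0), [((0,0,2),73728000), ((0,1,1),757760000), ((0,2,0),-98304000), ((1,0,1),16384000), ((1,1,0),20480000), ((1,2,0),-147456000), ((2,0,1),-36864000), ((2,1,0),-296960000), ((3,0,0),8192000)]),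
  ((3,0,0), [((0,0,1),768000), ((0,1,0),-208800), ((0,1,1),-16384000), ((0,2,0),7872000), ((1,0,1),-4800000), ((1,2,0),-2304000), ((2,0,0),-330408), ((2,0,1),2304000), ((2,1,0),8192000), ((3,0,0),1088000), ((4,0,0),-768000)]),
  ((4,0,0), [((0,0,2),24576000), ((0,2,0),-2304000), ((1,0,1),2304000), ((1,2,0),39936000), ((2,0,1),-39936000), ((3,0,0),-768000), ((4,0,0),9216000)])]

/-- the multiplier on the messages times 6 -/
def TA : Terms := [
  ((0,0,1), [((0,0,0),-432)]),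
  ((0,1,0), [((0,0,0),-456)]),
  ((0,2,0), [((0,0,0),1920)]),
  ((1,0,0), [((0,0,0),64)]),
  ((1,0,1), [((0,0,0),-528)]),
  ((1,1,0), [((0,0,0),672)]),
  ((2,0,0), [((0,0,0),120)]),
  ((3,0,0), [((0,0,0),-27)])]

/-- the multiplier on the simplex times 6 -/
def TB : Terms := [
  ((0,0,1), [((0,0,0),-384)]),
  ((0,1,0), [((0,0,0),264)]),
  ((0,2,0), [((0,0,0),144)]),
  ((1,0,0), [((0,0,0),64)]),
  ((1,0,1), [((0,0,0),-528)]),
  ((1,1,0), [((0,0,0),768)]),
  ((2,0,0), [((0,0,0),-81)]),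
  ((3,0,0), [((0,0,0),87)])]

end Vale.Agent.Lib.P154Q4.K1
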