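import Vale.Agent.Lib.P154Q4.K2Data

/-!
Reflective certificates of nonnegativity of the multipliers of the second kernel.
-/

namespace Vale.Agent.Lib.P154Q4.K2

open Kron Cells

/-- subdivision and exponents for the first multiplier -/
def trA : CT := (CT.leaf [72, 72, 72, 72, 632, 5111])

/-- subdivision and exponents for the second multiplier -/
def trB : CT := (CT.s 2 (CT.t 2 (CT.s 1 (CT.t 1 (CT.s 0 (CT.leaf [78, 78, 78, 78, 686, 5548]) (CT.t 0 (CT.s 4 (CT.leaf [84, 84, 84, 84, 739, 5980]) (CT.leaf [84, 84, 84, 84, 739, 5980])) (CT.s 4 (CT.leaf [84, 84, 84, 84, 739, 5980]) (CT.leaf [84, 84, 84, 84, 739, 5980])))) (CT.s 0 (CT.leaf [78, 78, 78, 78, 686, 5548]) (CT.t 5 (CT.s 4 (CT.leaf [84, 84, 84, 84, 739, 5980]) (CT.leaf [84, 84, 84, 84, 739, 5980])) (CT.s 4 (CT.leaf [84, 84, 84, 84, 739, 5980]) (CT.leaf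 [84, 84, 84, 84, 739, 5980]))))) (CT.t 1 (CT.t 0 (CT.s 4 (CT.t 2 (CT.s 0 (CT.leaf [83, 83, 83, 83, 731, 5914]) (CT.s 3 (CT.leaf [91, 91, 91, 91, 803, 6498]) (CT.leaf [90, 90, 90, 90, 794, 6426]))) (CT.s 0 (CT.leaf [83, 83, 83, 83, 731, 5914]) (CT.s 3 (CT.leaf [91, 91, 91, 91, 803, 6498]) (CT.leaf [90, 90, 90, 90, 794, 6426])))) (CT.leaf [75, 75, 75, 75, 659, 5330])) (CT.s 4 (CT.t 4 (CT.s 0 (CT.leaf [83, 83, 83, 83, 731, 5914]) (CT.s 3 (CT.leaf [91, 91, 91, 91, 803, 6498]) (CT.leaf [90, 90, 90, 90, 794, 6426]))) (CT.s 0 (CT.leaf [83, 83, 83, 83, 731, 5914]) (CT.s 3 (CT.leaf [91, 91, 91, 91, 803, 6498]) (CT.leaf [90, 90, 90, 90, 794, 6426])))) (CT.leaf [75, 75, 75, 75, 659, 5330]))) (CT.t 5 (CT.s 4 (CT.s 0 (CT.leaf [83, 83, 83, 83, 731, 5914]) (CT.s 3 (CT.leaf [91, 91, 91, 91, 803, 6498]) (CT.leaf [90, 90,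 90, 90, 794, 6426]))) (CT.leaf [75, 75, 75, 75, 659, 5330])) (CT.s 4 (CT.t 4 (CT.s 0 (CT.leaf [83, 83, 83, 83, 731, 5914]) (CT.s 3 (CT.leaf [91, 91, 91, 91, 803, 6498]) (CT.leaf [90, 90, 90, 90, 794, 6426]))) (CT.s 0 (CT.leaf [83, 83, 83, 83, 731, 5914]) (CT.s 3 (CT.leaf [91, 91, 91, 91, 803, 6498]) (CT.leaf [90, 90, 90, 90, 794, 6426])))) (CT.leaf [75, 75, 75, 75, 659, 5330]))))) (CT.s 1 (CT.s 0 (CT.leaf [78, 78, 78, 78, 686, 5548]) (CT.t 4 (CT.t 1 (CT.s 4 (CT.leaf [84, 84, 84, 84, 739, 5980]) (CT.leaf [84, 84, 84, 84, 739, 5980])) (CT.s 4 (CT.leaf [84, 84, 84, 84, 739, 5980]) (CT.leaf [84, 84, 84, 84, 739, 5980]))) (CT.t 1 (CT.s 4 (CT.leaf [84, 84, 84, 84, 739, 5980]) (CT.leaf [84, 84, 84, 84, 739, 5980])) (CT.s 4 (CT.leaf [84, 84, 84, 84, 739, 5980]) (CT.leaf [84, 84, 84, 84, 739, 5980]))))) (CT.t 4 (CT.t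 1 (CT.s 4 (CT.t 0 (CT.s 0 (CT.leaf [83, 83, 83, 83, 731, 5914]) (CT.s 3 (CT.leaf [91, 91, 91, 91, 803, 6498]) (CT.leaf [90, 90, 90, 90, 794, 6426]))) (CT.s 0 (CT.leaf [83, 83, 83, 83, 731, 5914]) (CT.s 3 (CT.leaf [91, 91, 91, 91, 803, 6498]) (CT.leaf [90, 90, 90, 90, 794, 6426])))) (CT.leaf [75, 75, 75, 75, 659, 5330])) (CT.s 4 (CT.s 0 (CT.leaf [83, 83, 83, 83, 731, 5914]) (CT.s 3 (CT.leaf [91, 91, 91, 91, 803, 6498]) (CT.leaf [90, 90, 90, 90, 794, 6426]))) (CT.leaf [75, 75, 75, 75, 659, 5330]))) (CT.t 1 (CT.s 4 (CT.t 2 (CT.s 0 (CT.leaf [83, 83, 83, 83, 731, 5914]) (CT.s 3 (CT.leaf [91, 91, 91, 91, 803, 6498]) (CT.leaf [90, 90, 90, 90, 794, 6426]))) (CT.s 0 (CT.leaf [83, 83, 83, 83, 731, 5914]) (CT.s 3 (CT.leaf [91, 91, 91, 91, 803, 6498]) (CT.leaf [90, 90, 90, 90, 794, 6426])))) (CT.leaf [75, 75, 75, 75,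 659, 5330])) (CT.s 4 (CT.s 0 (CT.leaf [83, 83, 83, 83, 731, 5914]) (CT.s 3 (CT.leaf [91, 91, 91, 91, 803, 6498]) (CT.leaf [90, 90, 90, 90, 794, 6426]))) (CT.leaf [75, 75, 75, 75, 659, 5330])))))) (CT.t 2 (CT.t 1 (CT.t 0 (CT.s 4 (CT.s 0 (CT.leaf [74, 74, 74, 74, 651, 5266]) (CT.t 2 (CT.s 3 (CT.t 1 (CT.t 0 (CT.s 4 (CT.leaf [90, 90, 90, 90, 795, 6434]) (CT.leaf [90, 90, 90, 90, 794, 6426])) (CT.s 4 (CT.leaf [90, 90, 90, 90, 795, 6434]) (CT.leaf [90, 90, 90, 90, 794, 6426]))) (CT.s 4 (CT.leaf [90, 90, 90, 90, 795, 6434]) (CT.leaf [90, 90, 90, 90, 794, 6426]))) (CT.leaf [82, 82, 82, 82, 722, 5842])) (CT.s 3 (CT.s 4 (CT.leaf [90, 90, 90, 90, 795, 6434]) (CT.leaf [90, 90, 90, 90, 794, 6426])) (CT.leaf [82, 82, 82, 82, 722, 5842])))) (CT.leaf [65, 65, 65, 65, 569, 4602])) (CT.s 4 (CT.s 0 (CT.leaf [74, 74, 74, 74,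 651, 5266]) (CT.t 4 (CT.s 3 (CT.t 3 (CT.t 0 (CT.s 4 (CT.leaf [90, 90, 90, 90, 795, 6434]) (CT.leaf [90, 90, 90, 90, 794, 6426])) (CT.s 4 (CT.leaf [90, 90, 90, 90, 795, 6434]) (CT.leaf [90, 90, 90, 90, 794, 6426]))) (CT.s 4 (CT.leaf [90, 90, 90, 90, 795, 6434]) (CT.leaf [90, 90, 90, 90, 794, 6426]))) (CT.leaf [82, 82, 82, 82, 722, 5842])) (CT.s 3 (CT.s 4 (CT.leaf [90, 90, 90, 90, 795, 6434]) (CT.leaf [90, 90, 90, 90, 794, 6426])) (CT.leaf [82, 82, 82, 82, 722, 5842])))) (CT.leaf [65, 65, 65, 65, 569, 4602]))) (CT.s 4 (CT.t 5 (CT.s 0 (CT.leaf [74, 74, 74, 74, 651, 5266]) (CT.s 3 (CT.t 0 (CT.t 1 (CT.s 4 (CT.leaf [90, 90, 90, 90, 795, 6434]) (CT.leaf [90, 90, 90, 90, 794, 6426])) (CT.t 3 (CT.s 4 (CT.leaf [90, 90, 90, 90, 795, 6434]) (CT.leaf [90, 90, 90, 90, 794, 6426])) (CT.s 4 (CT.leaf [90, 90, 90, 90, 795,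 6434]) (CT.leaf [90, 90, 90, 90, 794, 6426])))) (CT.t 3 (CT.t 4 (CT.s 4 (CT.leaf [90, 90, 90, 90, 795, 6434]) (CT.leaf [90, 90, 90, 90, 794, 6426])) (CT.s 4 (CT.leaf [90, 90, 90, 90, 795, 6434]) (CT.leaf [90, 90, 90, 90, 794, 6426]))) (CT.t 1 (CT.s 4 (CT.leaf [90, 90, 90, 90, 795, 6434]) (CT.leaf [90, 90, 90, 90, 794, 6426])) (CT.s 4 (CT.leaf [90, 90, 90, 90, 795, 6434]) (CT.leaf [90, 90, 90, 90, 794, 6426]))))) (CT.leaf [82, 82, 82, 82, 722, 5842]))) (CT.s 0 (CT.leaf [74, 74, 74, 74, 651, 5266]) (CT.t 4 (CT.s 3 (CT.t 0 (CT.s 4 (CT.leaf [90, 90, 90, 90, 795, 6434]) (CT.leaf [90, 90, 90, 90, 794, 6426])) (CT.t 3 (CT.s 4 (CT.leaf [90, 90, 90, 90, 795, 6434]) (CT.leaf [90, 90, 90, 90, 794, 6426])) (CT.s 4 (CT.leaf [90, 90, 90, 90, 795, 6434]) (CT.leaf [90, 90, 90, 90, 794, 6426])))) (CT.leaf [82, 82, 82, 82,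 722, 5842])) (CT.s 3 (CT.s 4 (CT.leaf [90, 90, 90, 90, 795, 6434]) (CT.leaf [90, 90, 90, 90, 794, 6426])) (CT.leaf [82, 82, 82, 82, 722, 5842]))))) (CT.leaf [65, 65, 65, 65, 569, 4602]))) (CT.s 4 (CT.t 4 (CT.t 1 (CT.s 0 (CT.leaf [74, 74, 74, 74, 651, 5266]) (CT.t 0 (CT.s 3 (CT.t 2 (CT.s 4 (CT.leaf [90, 90, 90, 90, 795, 6434]) (CT.leaf [90, 90, 90, 90, 794, 6426])) (CT.s 4 (CT.leaf [90, 90, 90, 90, 795, 6434]) (CT.leaf [90, 90, 90, 90, 794, 6426]))) (CT.leaf [82, 82, 82, 82, 722, 5842])) (CT.s 3 (CT.t 3 (CT.s 4 (CT.leaf [90, 90, 90, 90, 795, 6434]) (CT.leaf [90, 90, 90, 90, 794, 6426])) (CT.s 4 (CT.leaf [90, 90, 90, 90, 795, 6434]) (CT.leaf [90, 90, 90, 90, 794, 6426]))) (CT.leaf [82, 82, 82, 82, 722, 5842])))) (CT.s 0 (CT.leaf [74, 74, 74, 74, 651, 5266]) (CT.s 3 (CT.t 3 (CT.t 0 (CT.s 4 (CT.leaf [90, 90,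 90, 90, 795, 6434]) (CT.leaf [90, 90, 90, 90, 794, 6426])) (CT.s 4 (CT.leaf [90, 90, 90, 90, 795, 6434]) (CT.leaf [90, 90, 90, 90, 794, 6426]))) (CT.s 4 (CT.leaf [90, 90, 90, 90, 795, 6434]) (CT.leaf [90, 90, 90, 90, 794, 6426]))) (CT.leaf [82, 82, 82, 82, 722, 5842])))) (CT.t 1 (CT.s 0 (CT.leaf [74, 74, 74, 74, 651, 5266]) (CT.t 2 (CT.s 3 (CT.t 0 (CT.s 4 (CT.leaf [90, 90, 90, 90, 795, 6434]) (CT.leaf [90, 90, 90, 90, 794, 6426])) (CT.s 4 (CT.leaf [90, 90, 90, 90, 795, 6434]) (CT.leaf [90, 90, 90, 90, 794, 6426]))) (CT.leaf [82, 82, 82, 82, 722, 5842])) (CT.s 3 (CT.t 5 (CT.s 4 (CT.leaf [90, 90, 90, 90, 795, 6434]) (CT.leaf [90, 90, 90, 90, 794, 6426])) (CT.s 4 (CT.leaf [90, 90, 90, 90, 795, 6434]) (CT.leaf [90, 90, 90, 90, 794, 6426]))) (CT.leaf [82, 82, 82, 82, 722, 5842])))) (CT.s 0 (CT.leaf [74, 74, 74,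 74, 651, 5266]) (CT.s 3 (CT.t 2 (CT.s 4 (CT.leaf [90, 90, 90, 90, 795, 6434]) (CT.leaf [90, 90, 90, 90, 794, 6426])) (CT.t 5 (CT.s 4 (CT.leaf [90, 90, 90, 90, 795, 6434]) (CT.leaf [90, 90, 90, 90, 794, 6426])) (CT.s 4 (CT.leaf [90, 90, 90, 90, 795, 6434]) (CT.leaf [90, 90, 90, 90, 794, 6426])))) (CT.leaf [82, 82, 82, 82, 722, 5842]))))) (CT.leaf [65, 65, 65, 65, 569, 4602]))))

theorem okA : treeOK Tpsi1 8 0 10 trA T0 Z0 = true := by decide +kernel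

theorem okB : treeOK Tpsi2 8 0 10 trB S0 Z0 = true := by decide +kernel

end Vale.Agent.Lib.P154Q4.K2
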