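import Vale.Agent.Lib.P154Q4.K2Point

/-!
The polynomial identity of the second kernel as an integer expression.
-/

namespace Vale.Agent.Lib.P154Q4.K2

open Kron Ex Cells

/-- polynomial in one expression with integer coefficients -/
def polyEx (T : Ex) : List ℤ → Ex
  | [] => c 0
  | a :: l => add (c a) (mul T (polyEx T l))

/-- value of a polynomial with integer coefficients -/
noncomputable def polyV (t : ℝ) : List ℤ → ℝ
  | [] => 0
  | a :: l => (a : ℝ) + t * polyV t l

theorem eval_polyEx (y : ℕ → ℝ) (T : Ex) (l : List ℤ) :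
    (polyEx T l).eval y = polyV (T.eval y) l := by
  induction l with
  | nil => simp [polyEx, polyV, Ex.eval]
  | cons a l ih => simp [polyEx, polyV, Ex.eval, ih]

/-- coefficients of the surrogate -/
def cK : List ℤ := [307200000, (-153600000), 57600000, (-19200000), 3555468, (-241431)]

/-- coefficients of the surrogate -/
def c0 : List ℤ := [430080000, 107520000]

/-- coefficients of the surrogate -/
def c1 : List ℤ := [61440000, (-15360000), (-10516480), 14735616, (-5755424), 860792, (-43678)]

/-- coefficients of the surrogate -/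
def c2 : List ℤ := [(-56320000), 42240000, (-18971072), 4470608, (-356460)]

/-- coefficients of the surrogate -/
def c3 : List ℤ := [0, 0, (-94800)]

/-- the surrogate in four expressions, scaled by the common denominator -/
def LEx (x1 x2 x3 x4 : Ex) : Ex :=
  add (mul (add (mul (mul x1 x2) x3) (add (mul (mul x1 x2) x4)
        (add (mul (mul x1 x3) x4) (mul (mul x2 x3) x4))))
      (polyEx (add x1 (add x2 (add x3 (add x4 (c (-4)))))) cK))
    (add (polyEx (add x1 (add x2 (add x3 (add x4 (c (-4)))))) c0)
      (add (mul (add (mul x1 x2) (add (mul x1 x3) (add (mul x1 x4) (add (mul x2 x3)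
          (add (mul x2 x4) (mul x3 x4))))))
          (polyEx (add x1 (add x2 (add x3 (add x4 (c (-4)))))) c1))
        (add (mul (mul (add (mul x1 x2) (add (mul x1 x3) (add (mul x1 x4) (add (mul x2 x3)
              (add (mul x2 x4) (mul x3 x4))))))
            (add (mul x1 x2) (add (mul x1 x3) (add (mul x1 x4) (add (mul x2 x3)
              (add (mul x2 x4) (mul x3 x4)))))))
            (polyEx (add x1 (add x2 (add x3 (add x4 (c (-4)))))) c2))
          (mul (mul (mul (add (mul x1 x2) (add (mul x1 x3) (add (mul x1 x4) (add (mul x2 x3)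
              (add (mul x2 x4) (mul x3 x4))))))
            (add (mul x1 x2) (add (mul x1 x3) (add (mul x1 x4) (add (mul x2 x3)
              (add (mul x2 x4) (mul x3 x4)))))))
            (add (mul x1 x2) (add (mul x1 x3) (add (mul x1 x4) (add (mul x2 x3)
              (add (mul x2 x4) (mul x3 x4)))))))
            (polyEx (add x1 (add x2 (add x3 (add x4 (c (-4)))))) c3)))))

/-- the scalar identity behind the expression -/
theorem LEx_poly (E3 E2 T : ℝ) :
    E3 * polyV T cK + (polyV T c0 + (E2 * polyV T c1 + (E2 * E2 * polyV T c2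
        + E2 * E2 * E2 * polyV T c3)))
      = 6553600000 * Lf ((3 / 64) * E3) ((1 / 8) * E2) (1 + T / 4) := by
  simp only [cK, c0, c1, c2, c3, polyV, Lf, l2, Hf]
  push_cast
  ring

theorem eval_LEx (y : ℕ → ℝ) (x1 x2 x3 x4 : Ex) :
    (LEx x1 x2 x3 x4).eval y
      = 6553600000 * F (x1.eval y) (x2.eval y) (x3.eval y) (x4.eval y) := by
  have hT : (x1.eval y + x2.eval y + x3.eval y + x4.eval y) / 4
      = 1 + (x1.eval y + (x2.eval y + (x3.eval y + (x4.eval y + -4)))) / 4 := by ring
  have h3 : x1.eval y * x2.eval y * x3.eval y + x1.eval y * x2.eval y * x4.eval y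
        + x1.eval y * x3.eval y * x4.eval y + x2.eval y * x3.eval y * x4.eval y
      = x1.eval y * x2.eval y * x3.eval y + (x1.eval y * x2.eval y * x4.eval y
        + (x1.eval y * x3.eval y * x4.eval y + x2.eval y * x3.eval y * x4.eval y)) := by ring
  have h2 : x1.eval y * x2.eval y + x1.eval y * x3.eval y + x1.eval y * x4.eval y
        + x2.eval y * x3.eval y + x2.eval y * x4.eval y + x3.eval y * x4.eval y
      = x1.eval y * x2.eval y + (x1.eval y * x3.eval y + (x1.eval y * x4.eval y
        + (x2.eval y * x3.eval y + (x2.eval y * x4.eval y + x3.eval y * x4.eval y)))) := by ring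
  unfold F
  rw [hT, h3, h2, ← LEx_poly]
  simp [LEx, Ex.eval, eval_polyEx]

/-- the sum over the twenty four arrangements -/
def sum24 (G : Ex → Ex → Ex → Ex → Ex) (p q r s : Ex) : Ex :=
  add (add (add (add (add (add (add (add (G p q r s) (G p q s r)) (G p r q s)) (G p r s q)) (G p s q r)) (G p s r q)) (add (add (add (add (add (G q p r s) (G q p s r)) (G q r p s)) (G q r s p)) (G q s p r)) (G q s r p))) (add (add (add (add (add (G r p q s) (G r p s q)) (G r q p s)) (G r q s p)) (G r s p q)) (G r s q p))) (add (add (add (add (add (G s p q r) (G s p r q)) (G s q p r)) (G s q r p)) (G s r p q)) (G s r q p))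

theorem eval_sum24 (y : ℕ → ℝ) (G : Ex → Ex → Ex → Ex → Ex) (g : Fn4)
    (hG : ∀ p q r s : Ex, (G p q r s).eval y = g (p.eval y) (q.eval y) (r.eval y) (s.eval y))
    (p q r s : Ex) :
    (sum24 G p q r s).eval y = 24 * avg24 g (p.eval y) (q.eval y) (r.eval y) (s.eval y) := by
  simp only [sum24, Ex.eval, hG]
  unfold avg24
  ring

theorem eval_outerEx (y : ℕ → ℝ) (F G : Mono → Ex) (f g : Mono → ℝ)
    (hF : ∀ m, (F m).eval y = f m) (hG : ∀ m, (G m).eval y = g m) (l : Terms) :
    (outerEx F G l).eval y = outerVal f g l := by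
  induction l with
  | nil => simp [outerEx, outerVal, Ex.eval]
  | cons t l ih => simp [outerEx, outerVal, Ex.eval, ih, hF, eval_innerEx y G g hG t.2]

/-- the monomials of the first point -/
def Fs : Mono → Ex :=
  monoEx (sig1Ex (v 3) (v 4) (v 5)) (piiEx (v 3) (v 4) (v 5)) (sig2Ex (v 3) (v 4) (v 5))

/-- the monomials of the second point -/
def Ft : Mono → Ex :=
  monoEx (sig1Ex (v 0) (v 1) (v 2)) (piiEx (v 0) (v 1) (v 2)) (sig2Ex (v 0) (v 1) (v 2))

/-- the monomials at the origin -/
def F0 : Mono → Ex := monoEx (c 0) (c 0) (c 0)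

/-- the linear form `4 a` in the Fourier coordinates of the first point -/
def A1 : Ex := add (c 1) (mul (c 2) (add (v 3) (add (v 4) (v 5))))

/-- the linear form `4 b` in the Fourier coordinates of the first point -/
def A2 : Ex := add (c 1) (mul (c 2) (add (v 3) (add (mul (c (-1)) (v 4)) (mul (c (-1)) (v 5)))))

/-- the linear form `4 c` in the Fourier coordinates of the first point -/
def A3 : Ex := add (c 1) (mul (c 2) (add (mul (c (-1)) (v 3)) (add (v 4) (mul (c (-1)) (v 5)))))

/-- the linear form `4 d` in the Fourier coordinates of the first point -/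
def A4 : Ex := add (c 1) (mul (c 2) (add (mul (c (-1)) (v 3)) (add (mul (c (-1)) (v 4)) (v 5))))

/-- the linear form `4 p` in the Fourier coordinates of the second point -/
def P1 : Ex := add (c 1) (mul (c 2) (add (v 0) (add (v 1) (v 2))))

/-- the linear form `4 q` in the Fourier coordinates of the second point -/
def P2 : Ex := add (c 1) (mul (c 2) (add (v 0) (add (mul (c (-1)) (v 1)) (mul (c (-1)) (v 2)))))

/-- the linear form `4 r` in the Fourier coordinates of the second point -/
def P3 : Ex := add (c 1) (mul (c 2) (add (mul (c (-1)) (v 0)) (add (v 1) (mul (c (-1)) (v 2)))))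

/-- the linear form `4 s` in the Fourier coordinates of the second point -/
def P4 : Ex := add (c 1) (mul (c 2) (add (mul (c (-1)) (v 0)) (add (mul (c (-1)) (v 1)) (v 2))))

/-- the surrogate at one arrangement -/
def Lg (p q r s : Ex) : Ex := LEx (mul A1 p) (mul A2 q) (mul A3 r) (mul A4 s)

/-- the class function on the simplex, scaled, in Fourier coordinates -/
def f20 : Ex :=
  add (mul (c 60) (piiEx (v 3) (v 4) (v 5)))
    (mul (c (-11)) (mul (sig1Ex (v 3) (v 4) (v 5)) (sig1Ex (v 3) (v 4) (v 5))))

/-- the class function on the messages, scaled, in Fourier coordinates -/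
def g100 : Ex :=
  add (mul (c 300) (piiEx (v 0) (v 1) (v 2)))
    (mul (c (-77)) (mul (sig1Ex (v 0) (v 1) (v 2)) (sig1Ex (v 0) (v 1) (v 2))))

/-- the vanishing expression of the identity -/
def idEx : Ex :=
  add (sum24 Lg P1 P2 P3 P4)
    (add (mul (c (-262144)) (outerEx Fs Ft TP))
      (add (mul (c (-7864320)) (mul (outerEx Ft F0 Tpsi1) f20))
        (mul (c (-1572864)) (mul (outerEx Fs F0 Tpsi2) g100))))

end Vale.Agent.Lib.P154Q4.K2
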